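import Vale.Agent.P235.GSpec

namespace Vale.Agent.P235

abbrev Fm := List ℤ

def fev : Fm → List ℝ → ℝ
  | a :: f, b :: x => (a : ℝ) * b + fev f x
  | _, _ => 0

def fadd : Fm → Fm → Fm
  | a :: f, b :: g => (a + b) :: fadd f g
  | [], g => g
  | f, [] => f

def fsm (c : ℤ) : Fm → Fm
  | [] => []
  | a :: f => (c * a) :: fsm c f

def comb (C : List Fm) : List (ℕ × ℕ) → Fm
  | [] => []
  | q :: r => fadd (fsm (q.2 : ℤ) (C.getD q.1 [])) (comb C r)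

def fnn : Fm → Bool
  | [] => true
  | a :: f => decide (0 ≤ a) && fnn f

/-- certificate `(c, l)`: `(c+1) f - Σ m_i C_i` has nonnegative coefficients -/
def cert (C : List Fm) (f : Fm) (c : ℕ × List (ℕ × ℕ)) : Bool :=
  fnn (fadd (fsm ((c.1 : ℤ) + 1) f) (fsm (-1) (comb C c.2)))

def certs (C : List Fm) : List Fm → List (ℕ × List (ℕ × ℕ)) → Bool
  | [], _ => true
  | f :: r, c :: s => cert C f c && certs C r s
  | _ :: _, [] => false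

/-- the three alternatives of `Wp` at the vertex `b` of the parent -/
def wpar (b o : ℕ) : Fm :=
  (([[[-4, 0, -4, 128, 124, -4], [-4, -4, 0, 128, -4, 124], [0, 96, 96, 0, -128, -128]],
    [[-4, -4, 0, -4, 128, 124], [0, -4, -4, 124, 128, -4], [96, 0, 96, -128, 0, -128]],
    [[0, -4, -4, 124, -4, 128], [-4, 0, -4, -4, 124, 128], [96, 96, 0, -128, -128]]]: List (List Fm)).getD b []).getD o []

inductive DT
  | leaf (o : ℕ) (cs : List (ℕ × List (ℕ × ℕ)))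
  | split (o r : ℕ) (t1 t2 : DT)
  | w (b : ℕ) (t1 t2 t3 : DT)

def chkD (d : List (List Fm)) : List Fm → DT → Bool
  | C, .leaf o cs => decide (o < d.length) && certs C (d.getD o []) cs
  | C, .split o r t1 t2 => chkD d ((d.getD o []).getD r [] :: C) t1 &&
      chkD d (fsm (-1) ((d.getD o []).getD r []) :: C) t2
  | C, .w b t1 t2 t3 => decide (b < 3) && chkD d (wpar b 2 :: C) t1 &&
      chkD d (wpar b 0 :: fsm (-1) (wpar b 2) :: C) t2 &&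
      chkD d (wpar b 1 :: fsm (-1) (wpar b 0) :: fsm (-1) (wpar b 2) :: C) t3

def chkDs (C : List Fm) : List (List (List Fm)) → List DT → Bool
  | [], _ => true
  | d :: r, t :: s => chkD d C t && chkDs C r s
  | _ :: _, [] => false

/-- variables: g0 g1 g2 G0 G1 G2 κ k0 k1 k2 p0 p1 p2 l e0 e1 e2 m0 m1 m2 M -/
def monoD (ty : Bool) (c0 c1 c2 b : ℕ) : List (List (List Fm)) :=
  if ty then
    [[[[0,0,0,0,0,0,0,0,0,0,0,0,0,0,0,0,0,1]]], [[[0,0,0,0,0,0,0,0,0,0,0,0,0,0,0,0,0,0,1]]],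
     [[[0,0,0,0,0,0,0,0,0,0,0,0,0,0,0,0,0,0,0,1]]],
     [[[0,0,0,0,0,0,0,0,0,0,0,0,0,0,0,0,0,-1,-1,-1,1]]],
     [[[0,0,0,1,0,0,0,0,0,0,0,0,0,0,0,0,0,0,0,0,-(c0 : ℤ)]]],
     [[[0,0,0,0,1,0,0,0,0,0,0,0,0,0,0,0,0,0,0,0,-(c1 : ℤ)]]],
     [[[0,0,0,0,0,1,0,0,0,0,0,0,0,0,0,0,0,0,0,0,-(c2 : ℤ)]]],
     [[[0,0,0,0,0,0,0,0,0,0,1,0,0,0,0,0,0,-(c0 : ℤ)], [0,0,0,0,0,0,0,0,0,0,-1,0,0,0,0,0,0,(c0 : ℤ)],
       [0,0,0,0,0,0,0,0,0,0,0,1,0,0,0,0,0,0,-(c1 : ℤ)], [0,0,0,0,0,0,0,0,0,0,0,-1,0,0,0,0,0,0,(c1 : ℤ)],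
       [0,0,0,0,0,0,0,0,0,0,0,0,1,0,0,0,0,0,0,-(c2 : ℤ)], [0,0,0,0,0,0,0,0,0,0,0,0,-1,0,0,0,0,0,0,(c2 : ℤ)]]]]
  else
    [[[[0,0,0,0,0,0,0,0,0,0,1]]], [[[0,0,0,0,0,0,0,0,0,0,0,1]]], [[[0,0,0,0,0,0,0,0,0,0,0,0,1]]],
     [[[0,0,0,(c0 : ℤ),0,0,0,0,0,0,-(b : ℤ)]]], [[[0,0,0,0,(c1 : ℤ),0,0,0,0,0,0,-(b : ℤ)]]],
     [[[0,0,0,0,0,(c2 : ℤ),0,0,0,0,0,0,-(b : ℤ)]]]]

/-- the rows of `RespA`, in its order, scaled by 128 -/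
def respD (A : ℕ) : List (List (List Fm)) :=
  [[[[0, 0, 0, 0, 0, 0, 0, 0, 0, 0, 0, 0, 0, 128]]],
   [[[0, 0, 0, 0, 0, 0, 0, 0, 0, 0, 0, 0, 0, 0, 128]]],
   [[[0, 0, 0, 0, 0, 0, 0, 0, 0, 0, 0, 896, 0, 0, -128]]],
   [[[0, 0, 0, 0, 0, 0, 0, 0, 0, 0, 0, 0, 896, 0, -128]]],
   [[[0, 0, 0, 0, 0, 0, 0, 0, 0, 0, 0, 0, 0, 0, 0, 128]]],
   [[[0, 0, 0, 0, 0, 0, 0, 0, 0, 0, 896, 0, 0, 0, 0, -128]]],
   [[[0, 0, 0, 0, 0, 0, 0, 0, 0, 0, 0, 0, 896, 0, 0, -128]]],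
   [[[0, 0, 0, 0, 0, 0, 0, 0, 0, 0, 0, 0, 0, 0, 0, 0, 128]]],
   [[[0, 0, 0, 0, 0, 0, 0, 0, 0, 0, 896, 0, 0, 0, 0, 0, -128]]],
   [[[0, 0, 0, 0, 0, 0, 0, 0, 0, 0, 0, 896, 0, 0, 0, 0, -128]]],
   [[[0, 0, 0, -128, 0, 0, 0, 128, 0, 0, 128, -128, -128, -128]]],
   [[[0, 0, 0, 0, -128, 0, 0, 0, 128, 0, -128, 128, -128, -128]]],
   [[[0, 0, 0, 0, 0, -128, 0, 0, 0, 128, -128, -128, 128, -128]]],
   [[[0, 0, 0, 128, 0, 0, 0, -4, 0, 0, -128, 128, 128, 128]]],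
   [[[0, 0, 0, 0, 128, 0, 0, 0, -4, 0, 128, -128, 128, 128]]],
   [[[0, 0, 0, 0, 0, 128, 0, 0, 0, -4, 128, 128, -128, 128]]],
   [[[0, 0, 0, 0, 0, 0, -128, -4, 0, 0, 128, 1024, 1024, 128]],
    [[0, 0, 0, 0, -128, 0, 0, 0, -4, 0, 128, 1024, 1024, 128]],
    [[0, 0, 0, 0, 0, -128, 0, 0, 0, -4, 128, 1024, 1024, 128]]],
   [[[0, 32, 32, 0, -64, -64, 0, 0, 32, 32, -96, 0, 0, -96], [0, 32, 32, 0, 64, -64, 0, 0, 28, 32, -96, -128, 128, -96], [0, 32, 32, 0, -64, 64, 0, 0, 32, 28, -96, 128, -128, -96], [0, 32, 32, 0, -64, -64, -128, -4, 32, 32, -96, 1024, 1024, -96], (if A = 3 then [0, 32, 32, 128, -64, -64, 0, -4, 32, 32, 800, 128, 128, -96, 128] else [0, 32, 32, 0, -64, -64, 0, 0, 32, 32, 928, 0, 0, -224])],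
    [[0, 32, 32, 0, -64, -64, 0, 0, 32, 32, -96, 0, 0, -96], [0, 32, 32, 0, 64, -64, 0, 0, 28, 32, -96, -128, 128, -96], [0, 32, 32, 0, -64, 64, 0, 0, 32, 28, -96, 128, -128, -96], [0, 32, 32, 0, -192, -64, 0, 0, 28, 32, -96, 1024, 1024, -96], (if A = 3 then [0, 32, 32, 128, -64, -64, 0, -4, 32, 32, 800, 128, 128, -96, 128] else [0, 32, 32, 0, -64, -64, 0, 0, 32, 32, 928, 0, 0, -224])],
    [[0, 32, 32, 0, -64, -64, 0, 0, 32, 32, -96, 0, 0, -96], [0, 32, 32, 0, 64, -64, 0, 0, 28, 32, -96, -128, 128, -96], [0, 32, 32, 0, -64, 64, 0, 0, 32, 28, -96, 128, -128, -96], [0, 32, 32, 0, -64, -192, 0, 0, 32, 28, -96, 1024, 1024, -96], (if A = 3 then [0, 32, 32, 128, -64, -64, 0, -4, 32, 32, 800, 128, 128, -96, 128] else [0, 32, 32, 0, -64, -64, 0, 0, 32, 32, 928, 0, 0, -224])],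
    [[0, 32, 32, 0, -96, -64, 0, 0, 32, 32, -64, 32, -32, -64], [0, 28, 28, 0, -96, 64, 0, 0, 32, 32, -64, 160, -160, -64], [0, 32, 32, 0, -96, -64, 0, 0, 28, 32, 64, 32, -32, 64], [0, 32, 32, 0, -224, -64, 0, 0, 32, 32, -64, 1056, 992, -64], (if A = 1 then [-4, 28, 32, 128, -96, -64, 0, 0, 32, 32, 832, 160, 96, -64, 128] else [0, 32, 32, 0, -224, -64, 0, 0, 32, 32, 832, 160, -160, -64, 0, -128])],
    [[0, 32, 32, 0, -64, -96, 0, 0, 32, 32, -64, -32, 32, -64], [0, 32, 32, 0, -64, -96, 0, 0, 32, 28, 64, -32, 32, 64], [0, 28, 28, 0, 64, -96, 0, 0, 32, 32, -64, -160, 160, -64], [0, 32, 32, 0, -64, -224, 0, 0, 32, 32, -64, 992, 1056, -64], (if A = 2 then [-4, 32, 28, 128, -64, -96, 0, 0, 32, 32, 832, 96, 160, -64, 128] else [0, 32, 32, 0, -64, -224, 0, 0, 32, 32, 832, -160, 160, -64, 0, 0, -128])]],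
   [[[0, 0, 0, 0, 124, -4, 0, 0, 0, -4, 128, -128, 128, 128]],
    [[0, 0, 0, 0, -4, 124, 0, 0, -4, 0, 128, 128, -128, 128]],
    [[0, 96, 96, 0, -128, -128]]],
   [[[0, 0, 0, 0, 128, 124, 0, 0, -4, 0, -4, -4, 4, -4]],
    [[0, -4, -4, 0, 128, -4, 0, 0, 0, 0, 124, -132, 132, 124]],
    [[0, 0, 0, 0, 0, -128, 0, 0, 0, 96, -128, -128, 128, -128]]],
   [[[0, -4, -4, 0, -4, 128, 0, 0, 0, 0, 124, 132, -132, 124]],
    [[0, 0, 0, 0, 124, 128, 0, 0, 0, -4, -4, 4, -4, -4]],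
    [[0, 0, 0, 0, -128, 0, 0, 0, 96, 0, -128, 128, -128, -128]]],
   [[[0, 0, 0, 0, -128, 0, 0, 0, -4, 0, 1024, 128, 1024, 128]],
    [[0, 0, 0, 0, 0, -128, 0, 0, 0, -4, 1024, 128, 1024, 128]],
    [[0, 0, 0, 0, 0, 0, -128, -4, 0, 0, 1024, 128, 1024, 128]]],
   [[[32, 0, 32, -64, 0, -64, 0, 32, 0, 32, 0, -96, 0, -96], [32, 0, 32, -64, 0, 64, 0, 32, 0, 28, 128, -96, -128, -96], [32, 0, 32, 64, 0, -64, 0, 28, 0, 32, -128, -96, 128, -96], [32, 0, 32, -64, -128, -64, 0, 32, -4, 32, 1024, -96, 1024, -96], (if A = 3 then [32, 0, 32, -64, 128, -64, 0, 32, -4, 32, 128, 800, 128, -96, 0, 128] else [32, 0, 32, -64, 0, -64, 0, 32, 0, 32, 0, 928, 0, -224])],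
    [[32, 0, 32, -64, 0, -64, 0, 32, 0, 32, 0, -96, 0, -96], [32, 0, 32, -64, 0, 64, 0, 32, 0, 28, 128, -96, -128, -96], [32, 0, 32, 64, 0, -64, 0, 28, 0, 32, -128, -96, 128, -96], [32, 0, 32, -64, 0, -192, 0, 32, 0, 28, 1024, -96, 1024, -96], (if A = 3 then [32, 0, 32, -64, 128, -64, 0, 32, -4, 32, 128, 800, 128, -96, 0, 128] else [32, 0, 32, -64, 0, -64, 0, 32, 0, 32, 0, 928, 0, -224])],
    [[32, 0, 32, -64, 0, -64, 0, 32, 0, 32, 0, -96, 0, -96], [32, 0, 32, -64, 0, 64, 0, 32, 0, 28, 128, -96, -128, -96], [32, 0, 32, 64, 0, -64, 0, 28, 0, 32, -128, -96, 128, -96], [32, 0, 32, -64, 0, -64, -128, 28, 0, 32, 1024, -96, 1024, -96], (if A = 3 then [32, 0, 32, -64, 128, -64, 0, 32, -4, 32, 128, 800, 128, -96, 0, 128] else [32, 0, 32, -64, 0, -64, 0, 32, 0, 32, 0, 928, 0, -224])],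
    [[32, 0, 32, -64, 0, -96, 0, 32, 0, 32, -32, -64, 32, -64], [28, 0, 28, 64, 0, -96, 0, 32, 0, 32, -160, -64, 160, -64], [32, 0, 32, -64, 0, -96, 0, 32, 0, 28, -32, 64, 32, 64], [32, 0, 32, -64, 0, -224, 0, 32, 0, 32, 992, -64, 1056, -64], (if A = 2 then [32, -4, 28, -64, 128, -96, 0, 32, 0, 32, 96, 832, 160, -64, 0, 128] else [32, 0, 32, -64, 0, -224, 0, 32, 0, 32, -160, 832, 160, -64, 0, 0, -128])],
    [[32, 0, 32, -96, 0, -64, 0, 32, 0, 32, 32, -64, -32, -64], [32, 0, 32, -96, 0, -64, 0, 28, 0, 32, 32, 64, -32, 64], [28, 0, 28, -96, 0, 64, 0, 32, 0, 32, 160, -64, -160, -64], [32, 0, 32, -96, 0, -64, -128, 32, 0, 32, 1056, -64, 992, -64], (if A = 0 then [28, -4, 32, -96, 128, -64, 0, 32, 0, 32, 160, 832, 96, -64, 0, 128] else [32, 0, 32, -224, 0, -64, 0, 32, 0, 32, 160, 832, -160, -64, -128])]],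
   [[[0, 0, 0, -4, 0, 124, 0, -4, 0, 0, 128, 128, -128, 128]],
    [[0, 0, 0, 124, 0, -4, 0, 0, 0, -4, -128, 128, 128, 128]],
    [[96, 0, 96, -128, 0, -128]]],
   [[[0, 0, 0, 124, 0, 128, 0, 0, 0, -4, 4, -4, -4, -4]],
    [[-4, 0, -4, -4, 0, 128, 0, 0, 0, 0, 132, 124, -132, 124]],
    [[0, 0, 0, -128, 0, 0, 0, 96, 0, 0, 128, -128, -128, -128]]],
   [[[-4, 0, -4, 128, 0, -4, 0, 0, 0, 0, -132, 124, 132, 124]],
    [[0, 0, 0, 128, 0, 124, 0, -4, 0, 0, -4, -4, 4, -4]],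
    [[0, 0, 0, 0, 0, -128, 0, 0, 0, 96, -128, -128, 128, -128]]],
   [[[0, 0, 0, 0, 0, -128, 0, 0, 0, -4, 1024, 1024, 128, 128]],
    [[0, 0, 0, 0, 0, 0, -128, -4, 0, 0, 1024, 1024, 128, 128]],
    [[0, 0, 0, 0, -128, 0, 0, 0, -4, 0, 1024, 1024, 128, 128]]],
   [[[32, 32, 0, -64, -64, 0, 0, 32, 32, 0, 0, 0, -96, -96], [32, 32, 0, 64, -64, 0, 0, 28, 32, 0, -128, 128, -96, -96], [32, 32, 0, -64, 64, 0, 0, 32, 28, 0, 128, -128, -96, -96], [32, 32, 0, -64, -64, -128, 0, 32, 32, -4, 1024, 1024, -96, -96], (if A = 3 then [32, 32, 0, -64, -64, 128, 0, 32, 32, -4, 128, 128, 800, -96, 0, 0, 128] else [32, 32, 0, -64, -64, 0, 0, 32, 32, 0, 0, 0, 928, -224])],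
    [[32, 32, 0, -64, -64, 0, 0, 32, 32, 0, 0, 0, -96, -96], [32, 32, 0, 64, -64, 0, 0, 28, 32, 0, -128, 128, -96, -96], [32, 32, 0, -64, 64, 0, 0, 32, 28, 0, 128, -128, -96, -96], [32, 32, 0, -64, -64, 0, -128, 28, 32, 0, 1024, 1024, -96, -96], (if A = 3 then [32, 32, 0, -64, -64, 128, 0, 32, 32, -4, 128, 128, 800, -96, 0, 0, 128] else [32, 32, 0, -64, -64, 0, 0, 32, 32, 0, 0, 0, 928, -224])],
    [[32, 32, 0, -64, -64, 0, 0, 32, 32, 0, 0, 0, -96, -96], [32, 32, 0, 64, -64, 0, 0, 28, 32, 0, -128, 128, -96, -96], [32, 32, 0, -64, 64, 0, 0, 32, 28, 0, 128, -128, -96, -96], [32, 32, 0, -64, -192, 0, 0, 32, 28, 0, 1024, 1024, -96, -96], (if A = 3 then [32, 32, 0, -64, -64, 128, 0, 32, 32, -4, 128, 128, 800, -96, 0, 0, 128] else [32, 32, 0, -64, -64, 0, 0, 32, 32, 0, 0, 0, 928, -224])],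
    [[32, 32, 0, -96, -64, 0, 0, 32, 32, 0, 32, -32, -64, -64], [28, 28, 0, -96, 64, 0, 0, 32, 32, 0, 160, -160, -64, -64], [32, 32, 0, -96, -64, 0, 0, 28, 32, 0, 32, -32, 64, 64], [32, 32, 0, -96, -64, 0, -128, 32, 32, 0, 1056, 992, -64, -64], (if A = 0 then [28, 32, -4, -96, -64, 128, 0, 32, 32, 0, 160, 96, 832, -64, 0, 0, 128] else [32, 32, 0, -224, -64, 0, 0, 32, 32, 0, 160, -160, 832, -64, -128])],
    [[32, 32, 0, -64, -96, 0, 0, 32, 32, 0, -32, 32, -64, -64], [32, 32, 0, -64, -96, 0, 0, 32, 28, 0, -32, 32, 64, 64], [28, 28, 0, 64, -96, 0, 0, 32, 32, 0, -160, 160, -64, -64], [32, 32, 0, -64, -224, 0, 0, 32, 32, 0, 992, 1056, -64, -64], (if A = 1 then [32, 28, -4, -64, -96, 128, 0, 32, 32, 0, 96, 160, 832, -64, 0, 0, 128] else [32, 32, 0, -64, -224, 0, 0, 32, 32, 0, -160, 160, 832, -64, 0, -128])]],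
   [[[0, 0, 0, 124, -4, 0, 0, 0, -4, 0, -128, 128, 128, 128]],
    [[0, 0, 0, -4, 124, 0, 0, -4, 0, 0, 128, -128, 128, 128]],
    [[96, 96, 0, -128, -128]]],
   [[[0, 0, 0, 128, 124, 0, 0, -4, 0, 0, -4, 4, -4, -4]],
    [[-4, -4, 0, 128, -4, 0, 0, 0, 0, 0, -132, 132, 124, 124]],
    [[0, 0, 0, 0, -128, 0, 0, 0, 96, 0, -128, 128, -128, -128]]],
   [[[-4, -4, 0, -4, 128, 0, 0, 0, 0, 0, 132, -132, 124, 124]],
    [[0, 0, 0, 124, 128, 0, 0, 0, -4, 0, 4, -4, -4, -4]],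
    [[0, 0, 0, -128, 0, 0, 0, 96, 0, 0, 128, -128, -128, -128]]]]

structure Sg where
  ty : Bool
  c0 : ℕ
  c1 : ℕ
  c2 : ℕ
  b : ℕ
  A : ℕ
  D : ℕ
  N : List Fm

def lin : Fm → List Fm → Fm
  | a :: f, n :: N => if a = 0 then lin f N else fadd (fsm a n) (lin f N)
  | _, _ => []

/-- substitute `y i = fev (N i) x / (D+1)`, times `D+1` -/
def cmp (s : Sg) (f : Fm) : Fm := fadd (fsm ((s.D : ℤ) + 1) (f.take 10)) (lin (f.drop 10) s.N)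

def Sg.rows (s : Sg) : List (List (List Fm)) :=
  (monoD s.ty s.c0 s.c1 s.c2 s.b ++ respD s.A).map (fun d => d.map (fun o => o.map (cmp s)))

inductive TT
  | leaf (s : Sg) (ds : List DT)
  | split (h : Fm) (t1 t2 : TT)
  | w (b : ℕ) (t1 t2 t3 : TT)

def chkT : List Fm → TT → Bool
  | C, .leaf s ds => decide (s.N.length = 11) && decide (0 < s.b) && decide (s.c0 + s.c1 + s.c2 ≤ s.b) &&
      chkDs C s.rows ds
  | C, .split h t1 t2 => chkT (h :: C) t1 && chkT (fsm (-1) h :: C) t2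
  | C, .w b t1 t2 t3 => decide (b < 3) && chkT (wpar b 2 :: C) t1 &&
      chkT (wpar b 0 :: fsm (-1) (wpar b 2) :: C) t2 &&
      chkT (wpar b 1 :: fsm (-1) (wpar b 0) :: fsm (-1) (wpar b 2) :: C) t3

def DjOK (z : List ℝ) (ds : List (List (List Fm))) : Prop :=
  ∀ d ∈ ds, ∃ o ∈ d, ∀ f ∈ o, 0 ≤ fev f z

def StmtLink : Prop := ∀ (ty : Bool) (c0 c1 c2 b A : ℕ)
  (g0 g1 g2 G0 G1 G2 κ k0 k1 k2 p0 p1 p2 l e0 e1 e2 m0 m1 m2 M : ℝ), 0 < b → c0 + c1 + c2 ≤ b →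
  DjOK [g0, g1, g2, G0, G1, G2, κ, k0, k1, k2, p0, p1, p2, l, e0, e1, e2, m0, m1, m2, M]
    (monoD ty c0 c1 c2 b ++ respD A) → Resp g0 g1 g2 G0 G1 G2 κ k0 k1 k2

/-- soundness of the checker -/
def StmtChk : Prop := ∀ (g0 g1 g2 G0 G1 G2 κ k0 k1 k2 : ℝ),
  (∀ z ∈ [g0, g1, g2, G0, G1, G2, κ, k0, k1, k2], 0 ≤ z) →
  Wp g0 g1 g2 G0 G1 G2 → Wp g1 g2 g0 G1 G2 G0 → Wp g2 g0 g1 G2 G0 G1 →
  ∀ (t : TT) (C : List Fm), (∀ f ∈ C, 0 ≤ fev f [g0, g1, g2, G0, G1, G2, κ, k0, k1, k2]) →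
    chkT C t = true → Resp g0 g1 g2 G0 G1 G2 κ k0 k1 k2

end Vale.Agent.P235
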