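import Vale.Agent.P235.Spec

namespace Vale.Agent.P235

/-! Normalised game (lengths `G` in units of `C = 256`, `κ` in units of `32`). -/

def Mono (G0 G1 G2 p0 p1 p2 : ℝ) : Prop :=
  ∃ w0 w1 w2 : ℝ, 0 ≤ w0 ∧ 0 ≤ w1 ∧ 0 ≤ w2 ∧ w0 + w1 + w2 ≤ 1 ∧
    p0 = w0 * G0 ∧ p1 = w1 * G1 ∧ p2 = w2 * G2

/-- condition at the vertex `b` for the opposite edge `a c` -/
def Wp (gb ga gc Gb Ga Gc : ℝ) : Prop :=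
  (Ga + Gc + gc + gb) / 32 ≤ Ga + Gb ∨ (Gc + Ga + ga + gb) / 32 ≤ Gc + Gb ∨
    Ga + Gc ≤ 3 / 4 * (ga + gc)

/-- anchor condition: `M` the admissible value at the anchor, `Gs Gt` the other legs, `ds dt` the
distances to them, `N` noise, `q` the needed value, `pj` dropped mass, `rj ra` reference values -/
def An (A a : ℕ) (M Gs Gt ds dt N q pj rj dj ra : ℝ) : Prop :=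
  0 ≤ M ∧ ds / 32 ≤ M + Gs ∧ dt / 32 ≤ M + Gt ∧ q ≤ M + 8 * N ∧
    ((A = a ∧ dj / 32 ≤ M + 8 * pj + rj) ∨ ra ≤ M + 8 * pj)

/-- the child triangle `x u v` obtained by dropping `j` -/
def Ch (A u v : ℕ) (gj gu gv Gu Gv κj κu κv kj ku kv pj pu pv l rj ru rv : ℝ) : Prop :=
  (κj + kj / 32 ≤ l + pj + 8 * (pu + pv) ∨ κu + ku / 32 ≤ l + pj + 8 * (pu + pv) ∨
    κv + kv / 32 ≤ l + pj + 8 * (pu + pv)) ∧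
  (An A 3 (((ku + kv + gu + gv) / 2 - (l + pj + Gu + Gv) - (l + pj) / 2) / 2) (Gu - pu + pv)
      (Gv - pv + pu) ku kv (pu + pv) (κj + kj / 32) pj rj kj l ∨
    An A 3 (((ku + kv + gu + gv) / 2 - (l + pj + Gu + Gv) - (l + pj) / 2) / 2) (Gu - pu + pv)
      (Gv - pv + pu) ku kv (pu + pv) (κu + ku / 32) pj rj kj l ∨
    An A 3 (((ku + kv + gu + gv) / 2 - (l + pj + Gu + Gv) - (l + pj) / 2) / 2) (Gu - pu + pv)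
      (Gv - pv + pu) ku kv (pu + pv) (κv + kv / 32) pj rj kj l ∨
    An A u (((ku + kv + gu + gv) / 2 - (l + pj + Gu + Gv) - (Gu - pu + pv) / 2) / 2) (Gv - pv + pu)
      (l + pj) (gu + gv) ku (pu + pv) κu pj rj (gu + gj) ru ∨
    An A v (((ku + kv + gu + gv) / 2 - (l + pj + Gu + Gv) - (Gv - pv + pu) / 2) / 2) (l + pj)
      (Gu - pu + pv) kv (gu + gv) (pu + pv) κv pj rj (gv + gj) rv) ∧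
  Wp ((ku + kv - gu - gv) / 2) ((gu + gv + ku - kv) / 2) ((gu + gv + kv - ku) / 2)
    (l + pj) (Gu - pu + pv) (Gv - pv + pu) ∧
  Wp ((gu + gv + ku - kv) / 2) ((gu + gv + kv - ku) / 2) ((ku + kv - gu - gv) / 2)
    (Gu - pu + pv) (Gv - pv + pu) (l + pj) ∧
  Wp ((gu + gv + kv - ku) / 2) ((ku + kv - gu - gv) / 2) ((gu + gv + ku - kv) / 2)
    (Gv - pv + pu) (l + pj) (Gu - pu + pv)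

def RespA (A : ℕ) (g0 g1 g2 G0 G1 G2 κ k0 k1 k2 p0 p1 p2 l e0 e1 e2 : ℝ) : Prop :=
  0 ≤ l ∧ (0 ≤ e0 ∧ e0 ≤ 7 * p1 ∧ e0 ≤ 7 * p2) ∧ (0 ≤ e1 ∧ e1 ≤ 7 * p0 ∧ e1 ≤ 7 * p2) ∧
  (0 ≤ e2 ∧ e2 ≤ 7 * p0 ∧ e2 ≤ 7 * p1) ∧
  (l + (G0 - p0 + p1 + p2) ≤ k0 ∧ l + (G1 - p1 + p0 + p2) ≤ k1 ∧ l + (G2 - p2 + p0 + p1) ≤ k2) ∧
  (k0 / 32 ≤ l + (G0 - p0 + p1 + p2) ∧ k1 / 32 ≤ l + (G1 - p1 + p0 + p2) ∧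
    k2 / 32 ≤ l + (G2 - p2 + p0 + p1)) ∧
  Ch A 1 2 g0 g1 g2 G1 G2 κ G1 G2 k0 k1 k2 p0 p1 p2 l
    (G0 - p0 + p1 + p2 + e0) (G1 - p1 + p0 + p2 + e1) (G2 - p2 + p0 + p1 + e2) ∧
  Ch A 2 0 g1 g2 g0 G2 G0 G1 G2 κ k1 k2 k0 p1 p2 p0 l
    (G1 - p1 + p0 + p2 + e1) (G2 - p2 + p0 + p1 + e2) (G0 - p0 + p1 + p2 + e0) ∧
  Ch A 0 1 g2 g0 g1 G0 G1 G2 κ G1 k2 k0 k1 p2 p0 p1 l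
    (G2 - p2 + p0 + p1 + e2) (G0 - p0 + p1 + p2 + e0) (G1 - p1 + p0 + p2 + e1)

def Resp (g0 g1 g2 G0 G1 G2 κ k0 k1 k2 : ℝ) : Prop :=
  ∃ (A : ℕ) (p0 p1 p2 l e0 e1 e2 : ℝ), Mono G0 G1 G2 p0 p1 p2 ∧
    RespA A g0 g1 g2 G0 G1 G2 κ k0 k1 k2 p0 p1 p2 l e0 e1 e2

/-- hypotheses on the state (anchor at the vertex `0`) and on the move -/
def Base (g0 g1 g2 G0 G1 G2 κ k0 k1 k2 : ℝ) : Prop :=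
  (0 ≤ g0 ∧ 0 ≤ g1 ∧ 0 ≤ g2) ∧ (0 ≤ κ ∧ κ ≤ G0 ∧ 0 ≤ G1 ∧ 0 ≤ G2) ∧
  (G0 + G1 ≤ g0 + g1 ∧ G1 + G2 ≤ g1 + g2 ∧ G2 + G0 ≤ g2 + g0) ∧
  ((g0 + g1) / 32 ≤ κ + G1 ∧ (g1 + g2) / 32 ≤ G1 + G2 ∧ (g2 + g0) / 32 ≤ G2 + κ) ∧
  2 * κ + G0 / 2 ≤ g0 + g1 + g2 - G0 - G1 - G2 ∧
  (g0 + g1 ≤ k0 + k1 ∧ k0 ≤ k1 + g0 + g1 ∧ k1 ≤ k0 + g0 + g1) ∧
  (g1 + g2 ≤ k1 + k2 ∧ k1 ≤ k2 + g1 + g2 ∧ k2 ≤ k1 + g1 + g2) ∧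
  (g2 + g0 ≤ k2 + k0 ∧ k2 ≤ k0 + g2 + g0 ∧ k0 ≤ k2 + g2 + g0) ∧
  (0 ≤ k0 ∧ 0 ≤ k1 ∧ 0 ≤ k2)

def Core (Sy : ℝ → ℝ → ℝ → ℝ → Prop) : Prop :=
  ∀ g0 g1 g2 G0 G1 G2 κ k0 k1 k2 : ℝ, Base g0 g1 g2 G0 G1 G2 κ k0 k1 k2 →
    (κ = G0 ∨ 2 * κ + G0 / 2 = g0 + g1 + g2 - G0 - G1 - G2) →
    Wp g0 g1 g2 G0 G1 G2 → Wp g1 g2 g0 G1 G2 G0 → Wp g2 g0 g1 G2 G0 G1 → Sy G1 k1 G2 k2 →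
    Resp g0 g1 g2 G0 G1 G2 κ k0 k1 k2

def StmtRed : Prop := ∀ Sy : ℝ → ℝ → ℝ → ℝ → Prop, (∀ a b c d, Sy a b c d ∨ Sy c d a b) →
  Core Sy → StmtGame

def StmtMono : Prop :=
  (∀ G0 G1 G2 p0 p1 p2 c0 c1 c2 : ℝ, 0 ≤ c0 → 0 ≤ c1 → 0 ≤ c2 → c0 + c1 + c2 ≤ 1 →
    0 ≤ p0 → 0 ≤ p1 → 0 ≤ p2 → p0 ≤ c0 * G0 → p1 ≤ c1 * G1 → p2 ≤ c2 * G2 →
    Mono G0 G1 G2 p0 p1 p2) ∧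
  ∀ G0 G1 G2 m0 m1 m2 M c0 c1 c2 : ℝ, 0 ≤ c0 → 0 ≤ c1 → 0 ≤ c2 → 0 ≤ m0 → 0 ≤ m1 → 0 ≤ m2 →
    m0 + m1 + m2 ≤ M → c0 * M ≤ G0 → c1 * M ≤ G1 → c2 * M ≤ G2 →
    Mono G0 G1 G2 (c0 * m0) (c1 * m1) (c2 * m2)

end Vale.Agent.P235
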